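import Vale.Agent.P273.D14.H743.FDef

/-! `f` is isomorphism invariant. -/

namespace Vale.Agent.P273.D14.FS

open Sum MvPolynomial

noncomputable section

variable {V E V' E' : Type}

/-- Transport of states along a bijection of half-edges. -/
def trs (q : E × Bool → E' × Bool) (s : E' → St) : E → St := fun e => loc s (q (e, true))

theorem loc_true (s : E → St) (e : E) : loc s (e, true) = s e := by
  rw [loc]
  match s e with
  | inl c => rfl
  | inr true => rfl
  | inr false => rfl

theorem loc_not (s : E → St) (e : E) (b : Bool) :
    loc s (e, !b) = Sum.map id not (loc s (e, b)) := by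
  rw [loc, loc]
  match s e with
  | inl c => rfl
  | inr true => cases b <;> rfl
  | inr false => cases b <;> rfl

theorem loc_trs (q : E × Bool → E' × Bool) (hq : q.Injective)
    (he : ∀ e, (q (e, true)).1 = (q (e, false)).1) (s : E' → St) (y : E × Bool) :
    loc (trs q s) y = loc s (q y) := by
  obtain ⟨e, b⟩ := y
  have h1 : loc (trs q s) (e, true) = loc s (q (e, true)) := loc_true _ e
  match b with
  | true => exact h1
  | false =>
    have h2 : q (e, false) = ((q (e, true)).1, !(q (e, true)).2) := by
      have h3 : q (e, true) ≠ q (e, false) := fun h => by simpa using hq h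
      have h4 : (q (e, true)).2 ≠ (q (e, false)).2 := fun h => h3 (Prod.ext (he e) h)
      refine Prod.ext (he e).symm ?_
      revert h4
      cases (q (e, true)).2 <;> cases (q (e, false)).2 <;> simp
    have h5 := loc_not (trs q s) e true
    rw [h1] at h5
    rw [h2, loc_not]
    exact h5

/-- The bijection of the states. -/
def stE (q : (E × Bool) ≃ (E' × Bool)) (he : ∀ e, (q (e, true)).1 = (q (e, false)).1) :
    (E' → St) ≃ (E → St) where
  toFun := trs q
  invFun := trs q.symm
  left_inv s := by
    have he' : ∀ e, (q.symm (e, true)).1 = (q.symm (e, false)).1 := by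
      intro e
      obtain ⟨⟨e1, b⟩, h⟩ := q.surjective (e, true)
      have h2 : q (e1, !b) = (e, false) := by
        have h3 : (q (e1, !b)).1 = e := by
          have : (q (e1, !b)).1 = (q (e1, b)).1 := by
            cases b
            · exact he e1
            · exact (he e1).symm
          rw [this, h]
        have h4 : (q (e1, !b)).2 ≠ true := by
          intro h5
          have : q (e1, !b) = q (e1, b) := by rw [h]; exact Prod.ext h3 h5
          have := congrArg Prod.snd (q.injective this)
          simp at this
        exact Prod.ext h3 (by simpa using h4)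
      rw [← h, ← h2, q.symm_apply_apply, q.symm_apply_apply]
    funext e
    rw [trs, loc_trs q q.injective he, q.apply_symm_apply, loc_true]
  right_inv s := by
    have he' : ∀ e, (q.symm (e, true)).1 = (q.symm (e, false)).1 := by
      intro e
      obtain ⟨⟨e1, b⟩, h⟩ := q.surjective (e, true)
      have h2 : q (e1, !b) = (e, false) := by
        have h3 : (q (e1, !b)).1 = e := by
          have : (q (e1, !b)).1 = (q (e1, b)).1 := by
            cases b
            · exact he e1
            · exact (he e1).symm
          rw [this, h]
        have h4 : (q (e1, !b)).2 ≠ true := by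
          intro h5
          have : q (e1, !b) = q (e1, b) := by rw [h]; exact Prod.ext h3 h5
          have := congrArg Prod.snd (q.injective this)
          simp at this
        exact Prod.ext h3 (by simpa using h4)
      rw [← h, ← h2, q.symm_apply_apply, q.symm_apply_apply]
    funext e
    rw [trs, loc_trs q.symm q.symm.injective he', q.symm_apply_apply, loc_true]

theorem Z_iso (h : E × Bool → V) (h' : E' × Bool → V') (p : V ≃ V') (q : (E × Bool) ≃ (E' × Bool))
    (he : ∀ e, (q (e, true)).1 = (q (e, false)).1) (hh : ∀ y, h' (q y) = p (h y)) :
    Z h = Z h' := by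
  rw [Z, Z, ← finsum_comp_equiv (stE q he)]
  refine finsum_congr fun s => ?_
  rw [← finprod_comp_equiv p]
  refine finprod_congr fun v => congrArg W ?_
  funext c
  refine Nat.card_congr (q.subtypeEquiv fun y => ?_)
  rw [hh, p.injective.eq_iff]
  exact and_congr_right fun _ => by rw [stE, Equiv.coe_fn_mk, loc_trs q q.injective he]

/-- `f` is isomorphism invariant. -/
theorem f_iso (h : E × Bool → V) (h' : E' × Bool → V') (p : V → V') (q : E × Bool → E' × Bool)
    (hp : p.Bijective) (hq : q.Bijective) (he : ∀ e, (q (e, true)).1 = (q (e, false)).1)
    (hh : ∀ y, h' (q y) = p (h y)) : f h = f h' := by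
  rw [f, f, Z_iso h h' (Equiv.ofBijective p hp) (Equiv.ofBijective q hq) he hh]

end

end Vale.Agent.P273.D14.FS
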