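import Vale.Agent.P273.D14.H743.FStar

/-! The leaf identity for `f`. -/

namespace Vale.Agent.P273.D14.FS

open Sum MvPolynomial
open scoped Nat

noncomputable section

variable {V E : Type}

theorem th1_zero {i j k : ℕ} (h : i = 0 ∨ j = 0 ∨ k = 0) : th1 i j k = 0 := by
  unfold th1
  split
  · omega
  · rfl

theorem th1_rec (i j k : ℕ) :
    (i : ℚ) * th1 (i + 1) j k + (j : ℚ) * th1 i (j + 1) k + (k : ℚ) * th1 i j (k + 1) = 0 := by
  rcases i with _ | i
  · rw [th1_zero (i := 0) (Or.inl rfl), th1_zero (i := 0) (Or.inl rfl)]; simp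
  rcases j with _ | j
  · rw [th1_zero (j := 0) (Or.inr (Or.inl rfl)), th1_zero (j := 0) (Or.inr (Or.inl rfl))]; simp
  rcases k with _ | k
  · rw [th1_zero (k := 0) (Or.inr (Or.inr rfl)), th1_zero (k := 0) (Or.inr (Or.inr rfl))]; simp
  simp only [th1, th3]
  by_cases h : i + j + k = 8
  · rw [if_pos (by omega), if_pos (by omega), if_pos (by omega), cM_rec, Nat.factorial_succ i,
      Nat.factorial_succ j, Nat.factorial_succ k]
    have hi : (i ! : ℚ) ≠ 0 := by exact_mod_cast i.factorial_ne_zero
    have hj : (j ! : ℚ) ≠ 0 := by exact_mod_cast j.factorial_ne_zero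
    have hk : (k ! : ℚ) ≠ 0 := by exact_mod_cast k.factorial_ne_zero
    have hi' : (i : ℚ) + 1 ≠ 0 := by positivity
    have hj' : (j : ℚ) + 1 ≠ 0 := by positivity
    have hk' : (k : ℚ) + 1 ≠ 0 := by positivity
    push_cast
    field_simp
    ring
  · rw [if_neg (by omega), if_neg (by omega), if_neg (by omega)]; simp

theorem δ_monomial (m : Fin 4 →₀ ℕ) (a : ℚ) : δ (monomial m a) =
    -(monomial (m + Finsupp.single 0 1) (a * m 0) + monomial (m + Finsupp.single 1 1) (a * m 1) +
      monomial (m + Finsupp.single 2 1) (a * m 2)) := by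
  rw [δ, mkDerivation_monomial, Finsupp.sum_fintype _ _ (by simp), Fin.sum_univ_four]
  have key (i : Fin 4) : monomial (m - Finsupp.single i 1) (m i : ℚ) • (-X i ^ 2 : R) =
      -monomial (m + Finsupp.single i 1) (m i : ℚ) := by
    rw [smul_eq_mul, X_pow_eq_monomial, mul_neg, monomial_mul, mul_one]
    rcases Nat.eq_zero_or_pos (m i) with h | h
    · rw [h]; simp
    · congr 3
      ext j
      simp only [Finsupp.add_apply, Finsupp.tsub_apply, Finsupp.single_apply]
      split_ifs with hj
      · subst hj; omega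
      · omega
  have h0 := key 0
  have h1 := key 1
  have h2 := key 2
  simp only [Matrix.cons_val_zero, Matrix.cons_val_one, Matrix.cons_val] at h0 h1 h2 ⊢
  rw [h0, h1, h2, smul_zero, add_zero]
  simp only [smul_add, smul_neg, smul_monomial, smul_eq_mul]
  ring

/-- `La` kills the image of `δ`. -/
theorem La_δ (p : R) : La (δ p) = 0 := by
  induction p using MvPolynomial.induction_on' with
  | monomial m a =>
    rw [δ_monomial, map_neg, map_add, map_add, La_monomial, La_monomial, La_monomial]
    simp only [Finsupp.add_apply, Finsupp.single_apply, Fin.isValue, Fin.reduceEq, if_false,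
      if_true, add_zero]
    split_ifs with h
    · have := th1_rec (m 0) (m 1) (m 2)
      linear_combination (-a) * this
    · simp
  | add p q hp hq => rw [map_add, map_add, hp, hq, add_zero]

theorem Wm_big' (A : Multiset St) : Wm (inr false ::ₘ A) = δ (Wm A) := by
  by_cases h : inr true ∈ A
  · rw [Wm_end h]
    have h1 : 0 < A.count (inr true) := Multiset.count_pos.2 h
    rw [Wm, W, if_neg h1.ne']
    split_ifs
    · exact (Derivation.map_one_eq_zero δ).symm
    · exact (map_zero δ).symm
  · exact Wm_big h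

theorem Wm_single_core (c : Fin 3) : Wm {inl c} = 0 := by
  rw [Wm_core (by simp)]
  apply W0_small
  left
  match c with
  | 0 => decide
  | 1 => decide
  | 2 => decide

theorem Wm_zero : Wm 0 = 0 := by
  rw [Wm_core (by simp)]
  rfl

theorem leibniz_prod {ι : Type} [DecidableEq ι] (s : Finset ι) (g : ι → R) :
    δ (∏ i ∈ s, g i) = ∑ i ∈ s, δ (g i) * ∏ j ∈ s.erase i, g j := by
  induction s using Finset.induction with
  | empty => simp
  | insert i s hi ih =>
    rw [Finset.prod_insert hi, Derivation.leibniz, smul_eq_mul, smul_eq_mul, ih,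
      Finset.sum_insert hi, Finset.erase_insert hi, add_comm, mul_comm, Finset.mul_sum]
    congr 1
    refine Finset.sum_congr rfl fun j hj => ?_
    have hij : i ≠ j := fun h => hi (h ▸ hj)
    rw [Finset.erase_insert_of_ne hij, Finset.prod_insert (fun h => hi (Finset.mem_of_mem_erase h))]
    ring

theorem Z_leaf [Fintype E] [Fintype V] [DecidableEq V] [DecidableEq E] (h : E × Bool → V) (v : V) :
    Z (split h v (∅ : Set (E × Bool))) =
      ∑ s : E → St, δ (W (cnt h s v)) * ∏ v' ∈ Finset.univ.erase v, W (cnt h s v') := by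
  have h1 := Z_split h v ∅ (Finset.empty_subset _)
  rw [Finset.coe_empty] at h1
  rw [h1]
  refine Finset.sum_congr rfl fun s _ => ?_
  congr 1
  have h2 : ms s (∅ : Finset (E × Bool)) = 0 := rfl
  rw [h2, Finset.sdiff_empty, Fintype.sum_sum_type, Fintype.sum_bool]
  have h3 (c : Fin 3) : Wm (inl c ::ₘ (0 : Multiset St)) = 0 := Wm_single_core c
  have h4 : Wm (inr false ::ₘ (0 : Multiset St)) = 0 := by rw [Wm_big', Wm_zero, map_zero]
  have h5 : Wm (inr true ::ₘ (0 : Multiset St)) = 1 := by rw [Wm_end_cons, if_pos rfl]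
  simp only [h3, h4, h5, zero_mul, Finset.sum_const_zero, zero_add, add_zero, one_mul]
  rw [show fl (inr true) = inr false from rfl, Wm_big', Wm, ← cnt_ms]

/-- The leaf identity: the sum over all vertices of `f` of the graph with a leaf at the vertex. -/
theorem f_LI' [Finite V] [Finite E] (h : E × Bool → V) :
    ∑ᶠ v, f (split h v (∅ : Set (E × Bool))) = 0 := by
  classical
  haveI := Fintype.ofFinite E
  haveI := Fintype.ofFinite V
  rw [finsum_eq_sum_of_fintype]
  have h1 : ∑ v, f (split h v (∅ : Set (E × Bool))) = La (δ (Z h)) := by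
    simp only [f, Z_leaf]
    rw [← map_sum, Finset.sum_comm]
    congr 1
    rw [Z, finsum_eq_sum_of_fintype, map_sum]
    refine Finset.sum_congr rfl fun s _ => ?_
    rw [finprod_eq_prod_of_fintype, leibniz_prod]
  rw [h1, La_δ]

theorem split_empty (h : E × Bool → V) (v : V) : split h v (∅ : Set (E × Bool)) =
    fun y => y.1.elim (cond y.2 none (some v)) fun e => some (h (e, y.2)) := by
  funext ⟨e, b⟩
  match e with
  | none => rfl
  | some e => simp [split]

/-- The leaf identity. -/
theorem f_LI [Finite V] [Finite E] (h : E × Bool → V) :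
    ∑ᶠ v, f (fun y : Option E × Bool =>
      y.1.elim (cond y.2 none (some v)) fun e => some (h (e, y.2))) = 0 := by
  rw [← f_LI' h]
  exact finsum_congr fun v => by rw [split_empty]

end

end Vale.Agent.P273.D14.FS
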