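import Vale.Agent.P273.MathlibUsed

/-!
The function `f` on undecorated multigraphs, as a local state sum.

An edge is in one of five states: one of three colours, or `leaf`, with the side of the end
vertex (a vertex of valence one). The core type of a vertex (its coloured half-edges) is `{c,c}`,
`{0,1,2}` or `{c,c,d,d}`; each leaf at the vertex applies the derivation `δ`, which sends each of
the variables `t` to `-t^2`. The variable `X 3` counts the core valence minus two.
-/

namespace Vale.Agent.P273.D14.FS

open Sum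
open scoped Nat

noncomputable section

/-- The polynomial ring in the variables of the three colours and a variable for the valence. -/
abbrev R : Type := MvPolynomial (Fin 4) ℚ

open MvPolynomial

/-- The derivation that inserts a leaf. -/
def δ : Derivation ℚ R R := mkDerivation ℚ ![-X 0 ^ 2, -X 1 ^ 2, -X 2 ^ 2, 0]

/-- The edge states: a colour, or the side of the leaf end. -/
abbrev St : Type := Fin 3 ⊕ Bool

variable {V E : Type}

/-- The local state of a half-edge: a colour, `inr true` (leaf end) or `inr false` (big end). -/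
def loc (s : E → St) (y : E × Bool) : St :=
  Sum.elim inl (fun b => inr (b == y.2)) (s y.1)

/-- The weight of a vertex with `i`, `j`, `k` core half-edges of the three colours. -/
def W0 : ℕ → ℕ → ℕ → R
  | 2, 0, 0 => X 0
  | 0, 2, 0 => X 1
  | 0, 0, 2 => X 2
  | 1, 1, 1 => X 3 * X 0 * X 1 * X 2
  | 0, 2, 2 => 2 * X 3 ^ 2 * X 0 * X 1 ^ 2 * X 2 ^ 2
  | 2, 0, 2 => 2 * X 3 ^ 2 * X 0 ^ 2 * X 1 * X 2 ^ 2
  | 2, 2, 0 => 2 * X 3 ^ 2 * X 0 ^ 2 * X 1 ^ 2 * X 2
  | _, _, _ => 0

/-- The weight of a vertex with `n q` half-edges of local state `q`. -/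
def W (n : St → ℕ) : R :=
  if n (inr true) = 0 then δ^[n (inr false)] (W0 (n (inl 0)) (n (inl 1)) (n (inl 2)))
  else if n (inr true) = 1 ∧ n (inr false) = 0 ∧ ∀ c, n (inl c) = 0 then 1 else 0

/-- The number of half-edges at `v` with local state `q`. -/
def cnt (h : E × Bool → V) (s : E → St) (v : V) (q : St) : ℕ :=
  Nat.card {y : E × Bool // h y = v ∧ loc s y = q}

/-- The state sum of the graph with attaching map `h`. -/
def Z (h : E × Bool → V) : R := ∑ᶠ s : E → St, ∏ᶠ v, W (cnt h s v)

/-- The values of the functional on `X^i Y^(9-i)`. -/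
def tau : ℕ → ℚ
  | 0 => -336
  | 1 => 168
  | 2 => -98
  | 3 => 63
  | 4 => -22
  | 5 => -22
  | 6 => 63
  | 7 => -98
  | 8 => 168
  | 9 => -336
  | _ => 0

/-- The functional on `X^i Y^(9-i-k) Z^k`, where `X + Y + Z = 0`. -/
def cM (i k : ℕ) : ℚ := (-1) ^ k * ∑ l ∈ Finset.range (k + 1), (k.choose l : ℚ) * tau (i + l)

/-- The value on the theta graph with `i`, `j`, `k` edges, also for exponents zero. -/
def th3 (i j k : ℕ) : ℚ := if i + j + k = 9 then cM i k / (i ! * j ! * k !) else 0

/-- The value on `X 0 ^ i * X 1 ^ j * X 2 ^ k`. -/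
def th1 : ℕ → ℕ → ℕ → ℚ
  | i + 1, j + 1, k + 1 => th3 i j k
  | _, _, _ => 0

/-- The functional on `R`. -/
def La : R →ₗ[ℚ] ℚ :=
  (basisMonomials (Fin 4) ℚ).constr ℚ fun m => if m 3 = 2 then th1 (m 0) (m 1) (m 2) else 0

/-- The function `f` on undecorated multigraphs. -/
def f (h : E × Bool → V) : ℚ := La (Z h)

open scoped Classical in
/-- Split the vertex `v`: the half-edges in `S` go to the new vertex `none`, and a new edge joins
`none` (side `true`) to `v` (side `false`). -/
def split (h : E × Bool → V) (v : V) (S : Set (E × Bool)) : Option E × Bool → Option V :=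
  fun y => y.1.elim (cond y.2 none (some v)) fun e =>
    if h (e, y.2) = v ∧ (e, y.2) ∈ S then none else some (h (e, y.2))

theorem La_monomial (m : Fin 4 →₀ ℕ) (a : ℚ) :
    La (monomial m a) = a * if m 3 = 2 then th1 (m 0) (m 1) (m 2) else 0 := by
  have h : monomial m a = a • basisMonomials (Fin 4) ℚ m := by
    simp [coe_basisMonomials, smul_monomial]
  rw [h, map_smul, La, Module.Basis.constr_basis, smul_eq_mul]

theorem La_X3 (p : R) : La (X 3 ^ 3 * p) = 0 := by
  induction p using MvPolynomial.induction_on' with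
  | monomial m a =>
    rw [X_pow_eq_monomial, monomial_mul, La_monomial, if_neg, mul_zero]
    simp
    omega
  | add p q hp hq => rw [mul_add, map_add, hp, hq, add_zero]

/-- The three-term relation of the values: `La` kills the image of `δ`. -/
theorem cM_rec (i k : ℕ) : cM i (k + 1) = -(cM i k + cM (i + 1) k) := by
  have h : ∑ l ∈ Finset.range (k + 1 + 1), ((k + 1).choose l : ℚ) * tau (i + l) =
      (∑ l ∈ Finset.range (k + 1), (k.choose l : ℚ) * tau (i + l)) +
      ∑ l ∈ Finset.range (k + 1), (k.choose l : ℚ) * tau (i + 1 + l) := by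
    rw [Finset.sum_range_succ' _ (k + 1)]
    simp only [Nat.choose_succ_succ', Nat.cast_add, add_mul, Finset.sum_add_distrib]
    rw [Finset.sum_range_succ' (fun l => (k.choose l : ℚ) * tau (i + l)) k,
      Finset.sum_range_succ (fun l => (k.choose (l + 1) : ℚ) * tau (i + (l + 1))) k]
    simp only [Nat.choose_succ_self, Nat.cast_zero, zero_mul, add_zero, Nat.choose_zero_right]
    have : ∀ l, tau (i + 1 + l) = tau (i + (l + 1)) := fun l => by rw [add_assoc, add_comm 1 l]
    simp only [this]
    ring
  rw [cM, cM, cM, h, pow_succ]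
  ring

end

end Vale.Agent.P273.D14.FS
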