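import Vale.Agent.P273.D14.H743.FStar

/-! The splitting relation, with a sum over sets of half-edges at the vertex. -/

namespace Vale.Agent.P273.D14.FS

/-- The splitting relation: the sum over the sets of half-edges at `v`. -/
theorem f_star' {V E : Type} [Finite V] [Finite E] (h : E × Bool → V) (v : V) :
    ∑ᶠ (S : Set (E × Bool)) (_ : ∀ y ∈ S, h y = v), f (split h v S) = 0 := by
  classical
  have := Fintype.ofFinite E
  have := Fintype.ofFinite V
  have h1 : ∑ᶠ (S : Set (E × Bool)) (_ : ∀ y ∈ S, h y = v), f (split h v S) =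
      ∑ᶠ (S : Set (E × Bool)) (_ : S ∈ {S : Set (E × Bool) | ∀ y ∈ S, h y = v}),
        f (split h v S) := rfl
  rw [h1, ← f_star_finset h v, finsum_mem_eq_finite_toFinset_sum _ (Set.toFinite _)]
  symm
  refine Finset.sum_bij (fun S _ => (S : Set (E × Bool))) ?_ ?_ ?_ ?_
  · intro S hS
    rw [Set.Finite.mem_toFinset]
    intro y hy
    exact (Finset.mem_filter.1 (Finset.mem_powerset.1 hS hy)).2
  · intro S _ S' _ hS
    exact Finset.coe_injective hS
  · intro S hS
    rw [Set.Finite.mem_toFinset] at hS
    refine ⟨(Set.toFinite S).toFinset, ?_, Set.Finite.coe_toFinset _⟩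
    rw [Finset.mem_powerset]
    intro y hy
    exact Finset.mem_filter.2 ⟨Finset.mem_univ _, hS y ((Set.Finite.mem_toFinset _).1 hy)⟩
  · intro S _
    rfl

end Vale.Agent.P273.D14.FS
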