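import Vale.Agent.P273.D14.H743.FStar

/-! The state sum of a graph in which a vertex is split and several new edges are added at the two
new vertices. -/

namespace Vale.Agent.P273.D14.FS

open Sum MvPolynomial

noncomputable section

variable {V E F : Type}

open scoped Classical in
/-- Split the vertex `w`: the half-edges in `S` go to the new vertex `none`; there are new edges
`F`, the half-edges in `t` are at `none` and the others at `w`. -/
def ins (h : E × Bool → V) (w : V) (S : Set (E × Bool)) (t : F × Bool → Bool) :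
    (E ⊕ F) × Bool → Option V :=
  fun y => y.1.elim (fun e => if h (e, y.2) = w ∧ (e, y.2) ∈ S then none else some (h (e, y.2)))
    fun b => cond (t (b, y.2)) none (some w)

theorem ins_none_iff (h : E × Bool → V) (w : V) (S : Set (E × Bool)) (t : F × Bool → Bool)
    (y : E × Bool) : ins h w S t (inl y.1, y.2) = none ↔ h y = w ∧ y ∈ S := by
  classical
  have h1 : ins h w S t (inl y.1, y.2) =
    if h (y.1, y.2) = w ∧ (y.1, y.2) ∈ S then none else some (h (y.1, y.2)) := rfl
  rw [h1]
  split_ifs with h2
  · simpa using h2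
  · simpa using h2

theorem ins_some_iff (h : E × Bool → V) (w : V) (S : Set (E × Bool)) (t : F × Bool → Bool)
    (y : E × Bool) (v : V) :
    ins h w S t (inl y.1, y.2) = some v ↔ h y = v ∧ ¬ (h y = w ∧ y ∈ S) := by
  classical
  have h1 : ins h w S t (inl y.1, y.2) =
    if h (y.1, y.2) = w ∧ (y.1, y.2) ∈ S then none else some (h (y.1, y.2)) := rfl
  rw [h1]
  split_ifs with h2
  · simp only [reduceCtorEq, false_iff]
    exact fun h3 => h3.2 h2
  · rw [Option.some_inj]
    exact ⟨fun h3 => ⟨h3, h2⟩, fun h3 => h3.1⟩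

theorem ins_inr (h : E × Bool → V) (w : V) (S : Set (E × Bool)) (t : F × Bool → Bool)
    (y : F × Bool) : ins h w S t (inr y.1, y.2) = cond (t y) none (some w) := rfl

theorem card_sum_bool [Finite E] [Finite F] (P : (E ⊕ F) × Bool → Prop) :
    Nat.card {y // P y} = Nat.card {y : E × Bool // P (inl y.1, y.2)} +
      Nat.card {y : F × Bool // P (inr y.1, y.2)} := by
  classical
  have := Fintype.ofFinite E
  have := Fintype.ofFinite F
  rw [Nat.card_eq_fintype_card, Nat.card_eq_fintype_card, Nat.card_eq_fintype_card,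
    Fintype.card_subtype, Fintype.card_subtype, Fintype.card_subtype, Finset.card_filter,
    Finset.card_filter, Finset.card_filter, Fintype.sum_prod_type, Fintype.sum_sum_type,
    Fintype.sum_prod_type, Fintype.sum_prod_type]

theorem card_ms {X : Type} [Fintype X] [DecidableEq X] (s : X → St) (S : Finset (X × Bool))
    (P : X × Bool → Prop) (hP : ∀ y, P y ↔ y ∈ S) (q : St) :
    Nat.card {y : X × Bool // P y ∧ loc s y = q} = (ms s S).count q := by
  classical
  rw [ms, Multiset.count_map, ← Finset.filter_val, Finset.card_val, Nat.card_eq_fintype_card,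
    Fintype.card_subtype]
  congr 1
  ext y
  rw [Finset.mem_filter, Finset.mem_filter, hP]
  exact ⟨fun h => ⟨h.2.1, h.2.2.symm⟩, fun h => ⟨Finset.mem_univ _, h.1, h.2.symm⟩⟩

section
variable [Fintype E] [Fintype V] [Fintype F] [DecidableEq V] [DecidableEq E] [DecidableEq F]

theorem cnt_ins_none (h : E × Bool → V) (w : V) (S : Finset (E × Bool))
    (hS : S ⊆ Finset.univ.filter fun y => h y = w) (t : F × Bool → Bool) (s : E ⊕ F → St) :
    cnt (ins h w S t) s none = fun q => (ms (fun e => s (inl e)) S +
      ms (fun e => s (inr e)) (Finset.univ.filter fun y => t y = true)).count q := by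
  funext q
  rw [cnt, card_sum_bool, Multiset.count_add]
  congr 1
  · refine card_ms (fun e => s (inl e)) S _ (fun y => ?_) q
    rw [ins_none_iff, Finset.mem_coe]
    exact ⟨fun h1 => h1.2, fun h1 => ⟨(Finset.mem_filter.1 (hS h1)).2, h1⟩⟩
  · refine card_ms (fun e => s (inr e)) _ _ (fun y => ?_) q
    rw [ins_inr, Finset.mem_filter]
    cases t y <;> simp

theorem cnt_ins_some (h : E × Bool → V) (w : V) (S : Finset (E × Bool))
    (t : F × Bool → Bool) (s : E ⊕ F → St) :
    cnt (ins h w S t) s (some w) = fun q => (ms (fun e => s (inl e))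
        ((Finset.univ.filter fun y => h y = w) \ S) +
      ms (fun e => s (inr e)) (Finset.univ.filter fun y => t y = false)).count q := by
  funext q
  rw [cnt, card_sum_bool, Multiset.count_add]
  congr 1
  · refine card_ms (fun e => s (inl e)) _ _ (fun y => ?_) q
    rw [ins_some_iff, Finset.mem_coe, Finset.mem_sdiff, Finset.mem_filter]
    exact ⟨fun h1 => ⟨⟨Finset.mem_univ _, h1.1⟩, fun h2 => h1.2 ⟨h1.1, h2⟩⟩,
      fun h1 => ⟨h1.1.2, fun h2 => h1.2 h2.2⟩⟩
  · refine card_ms (fun e => s (inr e)) _ _ (fun y => ?_) q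
    rw [ins_inr, Finset.mem_filter]
    cases t y <;> simp

theorem cnt_ins_other (h : E × Bool → V) (w : V) (S : Set (E × Bool)) (t : F × Bool → Bool)
    (s : E ⊕ F → St) {v : V} (hv : v ≠ w) :
    cnt (ins h w S t) s (some v) = cnt h (fun e => s (inl e)) v := by
  funext q
  rw [cnt, card_sum_bool, cnt]
  have h1 : Nat.card {y : F × Bool // ins h w S t (inr y.1, y.2) = some v ∧
      loc s (inr y.1, y.2) = q} = 0 := by
    rw [Nat.card_eq_zero]
    left
    refine ⟨fun ⟨y, hy⟩ => ?_⟩
    have := hy.1
    rw [ins_inr] at this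
    cases h2 : t y
    · rw [h2] at this
      exact hv (Option.some_inj.1 this).symm
    · rw [h2] at this
      cases this
  rw [h1, add_zero]
  refine Nat.card_congr (Equiv.subtypeEquivRight fun y => ?_)
  rw [ins_some_iff]
  exact and_congr ⟨fun h2 => h2.1, fun h2 => ⟨h2, fun h3 => hv (h2.symm.trans h3.1)⟩⟩ Iff.rfl

theorem Z_ins (h : E × Bool → V) (w : V) (S : Finset (E × Bool))
    (hS : S ⊆ Finset.univ.filter fun y => h y = w) (t : F × Bool → Bool) :
    Z (ins h w S t) = ∑ s : E → St, (∑ r : F → St,
      Wm (ms s S + ms r (Finset.univ.filter fun y => t y = true)) *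
      Wm (ms s ((Finset.univ.filter fun y => h y = w) \ S) +
        ms r (Finset.univ.filter fun y => t y = false))) *
      ∏ v' ∈ Finset.univ.erase w, W (cnt h s v') := by
  rw [Z, finsum_eq_sum_of_fintype]
  rw [← (Equiv.sumArrowEquivProdArrow E F St).symm.sum_comp, Fintype.sum_prod_type]
  refine Finset.sum_congr rfl fun s _ => ?_
  rw [Finset.sum_mul]
  refine Finset.sum_congr rfl fun r _ => ?_
  rw [finprod_eq_prod_of_fintype, Fintype.prod_option, mul_assoc]
  rw [cnt_ins_none h w S hS]
  congr 1
  rw [← Finset.mul_prod_erase Finset.univ _ (Finset.mem_univ w), cnt_ins_some h w S]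
  congr 1
  refine Finset.prod_congr rfl fun v' hv' => ?_
  rw [cnt_ins_other h w S t _ (Finset.ne_of_mem_erase hv')]
  rfl

end

end

end Vale.Agent.P273.D14.FS
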