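import Vale.Agent.P273.D14.H743.FDef

/-! The local identity behind the splitting relation of `f`. -/

namespace Vale.Agent.P273.D14.FS

open Sum MvPolynomial

noncomputable section

theorem δ_X3 : δ (X 3) = 0 := by
  rw [δ, mkDerivation_X]; rfl

theorem δ_X3_mul (p : R) : δ (X 3 ^ 3 * p) = X 3 ^ 3 * δ p := by
  rw [Derivation.leibniz, Derivation.leibniz_pow, δ_X3]
  simp

/-- The weight of a vertex with the multiset `A` of local states. -/
def Wm (A : Multiset St) : R := W fun q => A.count q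

/-- The other local state of an edge. -/
def fl : St → St := Sum.map id not

theorem Wm_end {q : St} {A : Multiset St} (h : inr true ∈ A) : Wm (q ::ₘ A) = 0 := by
  have h1 : 0 < A.count (inr true) := Multiset.count_pos.2 h
  rw [Wm, W, if_neg, if_neg]
  · rintro ⟨h2, h3, h4⟩
    simp only [Multiset.count_cons] at h2 h3 h4
    match q with
    | inl c => specialize h4 c; simp at h4
    | inr true => simp at h2; exact h2 h
    | inr false => simp at h3
  · simp only [Multiset.count_cons]; omega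

theorem Wm_end_cons (A : Multiset St) : Wm (inr true ::ₘ A) = if A = 0 then 1 else 0 := by
  split_ifs with h
  · subst h
    rw [Wm, W, if_neg (by simp), if_pos]
    simp
  · rw [Wm, W, if_neg (by simp), if_neg]
    rintro ⟨h2, h3, h4⟩
    apply h
    rw [Multiset.eq_zero_iff_forall_notMem]
    intro q hq
    rw [← Multiset.count_pos] at hq
    match q with
    | inl c => specialize h4 c; simp at h4; simp [h4] at hq
    | inr true => simp at h2; simp [h2] at hq
    | inr false => simp at h3; simp [h3] at hq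

theorem Wm_big {A : Multiset St} (h : inr true ∉ A) : Wm (inr false ::ₘ A) = δ (Wm A) := by
  have h0 : A.count (inr true) = 0 := Multiset.count_eq_zero.2 h
  rw [Wm, W, if_pos (by simpa using h), Wm, W, if_pos h0]
  simp only [Multiset.count_cons_self, Function.iterate_succ', Function.comp_apply]
  congr 2; simp

/-- The sum over the colours of the new edge. -/
def F2 (A B : Multiset St) : R := ∑ c : Fin 3, Wm (inl c ::ₘ A) * Wm (inl c ::ₘ B)

theorem F2_big {A B : Multiset St} (hA : inr true ∉ A) (hB : inr true ∉ B) :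
    F2 A (inr false ::ₘ B) + F2 (inr false ::ₘ A) B = δ (F2 A B) := by
  have h (c : Fin 3) {A : Multiset St} (hA : inr true ∉ A) :
      Wm (inl c ::ₘ inr false ::ₘ A) = δ (Wm (inl c ::ₘ A)) := by
    rw [Multiset.cons_swap, Wm_big (by simpa using hA)]
  simp only [F2, h _ hA, h _ hB, map_sum, Derivation.leibniz, smul_eq_mul]
  rw [← Finset.sum_add_distrib]
  exact Finset.sum_congr rfl fun c _ => by ring

/-- The sum over all splittings, with a coloured new edge. -/
def S1 (M : Multiset St) : R := (M.antidiagonal.map fun p => F2 p.1 p.2).sum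

theorem S1_big {M : Multiset St} (hM : inr true ∉ M) : S1 (inr false ::ₘ M) = δ (S1 M) := by
  rw [S1, S1, Multiset.antidiagonal_cons, Multiset.map_add, Multiset.sum_add,
    Multiset.map_map, Multiset.map_map, ← Multiset.sum_map_add, map_multiset_sum,
    Multiset.map_map]
  refine congrArg _ (Multiset.map_congr rfl fun p hp => ?_)
  rw [Multiset.mem_antidiagonal] at hp
  have h1 : inr true ∉ p.1 := fun h => hM (hp ▸ Multiset.mem_add.2 (Or.inl h))
  have h2 : inr true ∉ p.2 := fun h => hM (hp ▸ Multiset.mem_add.2 (Or.inr h))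
  exact F2_big h1 h2

theorem sum_zero_fst (M : Multiset St) (g : Multiset St → R) :
    (M.antidiagonal.map fun p => if p.1 = 0 then g p.2 else 0).sum = g M := by
  induction M using Multiset.induction generalizing g with
  | empty => simp
  | cons a M ih =>
    rw [Multiset.antidiagonal_cons, Multiset.map_add, Multiset.sum_add, Multiset.map_map,
      Multiset.map_map]
    have := ih fun B => g (a ::ₘ B)
    simpa using this

theorem sum_zero_snd (M : Multiset St) (g : Multiset St → R) :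
    (M.antidiagonal.map fun p => if p.2 = 0 then g p.1 else 0).sum = g M := by
  induction M using Multiset.induction generalizing g with
  | empty => simp
  | cons a M ih =>
    rw [Multiset.antidiagonal_cons, Multiset.map_add, Multiset.sum_add, Multiset.map_map,
      Multiset.map_map]
    have := ih fun B => g (a ::ₘ B)
    simpa using this

theorem W0_dvd (i j k : ℕ) : (X 3 : R) ^ (i + j + k - 2) ∣ W0 i j k := by
  unfold W0
  split
  · simp
  · simp
  · simp
  · simp only [Nat.reduceAdd, Nat.reduceSub, pow_one]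
    exact ⟨X 0 * X 1 * X 2, by ring⟩
  · simp only [Nat.reduceAdd, Nat.reduceSub]
    exact ⟨2 * X 0 * X 1 ^ 2 * X 2 ^ 2, by ring⟩
  · simp only [Nat.reduceAdd, Nat.reduceSub]
    exact ⟨2 * X 0 ^ 2 * X 1 * X 2 ^ 2, by ring⟩
  · simp only [Nat.reduceAdd, Nat.reduceSub]
    exact ⟨2 * X 0 ^ 2 * X 1 ^ 2 * X 2, by ring⟩
  · exact dvd_zero _

theorem W0_small {i j k : ℕ} (h : i + j + k < 2 ∨ 4 < i + j + k) : W0 i j k = 0 := by
  unfold W0
  split <;> first | rfl | (exfalso; omega)

/-- Counts of the colours. -/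
def Gt (i j k i' j' k' : ℕ) : R :=
  W0 (i + 1) j k * W0 (i' + 1) j' k' + W0 i (j + 1) k * W0 i' (j' + 1) k' +
    W0 i j (k + 1) * W0 i' j' (k' + 1)

theorem Gt_dvd {i j k i' j' k' : ℕ} (h : 5 ≤ i + j + k + (i' + j' + k')) :
    (X 3 : R) ^ 3 ∣ Gt i j k i' j' k' := by
  have key {a b c a' b' c' : ℕ} (h : 7 ≤ a + b + c + (a' + b' + c')) :
      (X 3 : R) ^ 3 ∣ W0 a b c * W0 a' b' c' := by
    rcases lt_or_ge (a + b + c) 2 with h1 | h1
    · rw [W0_small (Or.inl h1), zero_mul]; exact dvd_zero _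
    rcases lt_or_ge (a' + b' + c') 2 with h2 | h2
    · rw [W0_small (Or.inl h2), mul_zero]; exact dvd_zero _
    refine (pow_dvd_pow _ ?_).trans (pow_add (X 3 : R) _ _ ▸ mul_dvd_mul (W0_dvd a b c) (W0_dvd a' b' c'))
    omega
  unfold Gt
  refine dvd_add (dvd_add (key ?_) (key ?_)) (key ?_) <;> omega

/-- The binomial sums. -/
def Bs (a b c : ℕ) : R :=
  ∑ i ∈ Finset.range (a + 1), ∑ j ∈ Finset.range (b + 1), ∑ k ∈ Finset.range (c + 1),
    ((a.choose i * b.choose j * c.choose k : ℕ) : R) * Gt i j k (a - i) (b - j) (c - k)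

theorem δ0 : δ (X 0) = -X 0 ^ 2 := by rw [δ, mkDerivation_X]; rfl
theorem δ1 : δ (X 1) = -X 1 ^ 2 := by rw [δ, mkDerivation_X]; rfl
theorem δ2 : δ (X 2) = -X 2 ^ 2 := by rw [δ, mkDerivation_X]; rfl

theorem W0_par {i j k : ℕ} (h : ¬ (i % 2 = j % 2 ∧ j % 2 = k % 2)) : W0 i j k = 0 := by
  unfold W0
  split <;> first | rfl | (exfalso; omega)

theorem Bs_par {a b c : ℕ} (h : ¬ (a % 2 = b % 2 ∧ b % 2 = c % 2)) : Bs a b c = 0 := by
  have key {i j k i' j' k' : ℕ} (h : ¬ ((i + i') % 2 = (j + j') % 2 ∧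
      (j + j') % 2 = (k + k') % 2)) : W0 i j k * W0 i' j' k' = 0 := by
    by_cases h1 : i % 2 = j % 2 ∧ j % 2 = k % 2
    · rw [W0_par (i := i'), mul_zero]
      omega
    · rw [W0_par h1, zero_mul]
  refine Finset.sum_eq_zero fun i hi => Finset.sum_eq_zero fun j hj =>
    Finset.sum_eq_zero fun k hk => ?_
  rw [Finset.mem_range] at hi hj hk
  rw [Gt, key, key, key, add_zero, add_zero, mul_zero] <;> omega

theorem δ_two : δ (2 : R) = 0 := by
  have := δ.map_natCast 2
  simpa using this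

theorem Bs_000 : Bs 0 0 0 + 2 * δ (W0 0 0 0) = 0 := by
  simp only [Bs, Finset.sum_range_succ, Finset.sum_range_zero, Gt, W0, zero_add, Nat.sub_self,
    Nat.reduceAdd, Nat.reduceSub, Nat.choose_self, Nat.choose_zero_right, mul_zero, zero_mul,
    add_zero, map_zero, Nat.choose, Nat.reduceMul, Nat.cast_one, one_mul, Nat.cast_ofNat]
  try simp only [Derivation.leibniz, Derivation.leibniz_pow, δ0, δ1, δ2, δ_X3, δ_two, smul_eq_mul,
    smul_zero, mul_zero, zero_add, add_zero]
  try ring

theorem Bs_200 : Bs 2 0 0 + 2 * δ (W0 2 0 0) = 0 := by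
  simp only [Bs, Finset.sum_range_succ, Finset.sum_range_zero, Gt, W0, zero_add, Nat.sub_self,
    Nat.reduceAdd, Nat.reduceSub, Nat.choose_self, Nat.choose_zero_right, mul_zero, zero_mul,
    add_zero, map_zero, Nat.choose, Nat.reduceMul, Nat.cast_one, one_mul, Nat.cast_ofNat]
  try simp only [Derivation.leibniz, Derivation.leibniz_pow, δ0, δ1, δ2, δ_X3, δ_two, smul_eq_mul,
    smul_zero, mul_zero, zero_add, add_zero]
  try ring

theorem Bs_020 : Bs 0 2 0 + 2 * δ (W0 0 2 0) = 0 := by
  simp only [Bs, Finset.sum_range_succ, Finset.sum_range_zero, Gt, W0, zero_add, Nat.sub_self,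
    Nat.reduceAdd, Nat.reduceSub, Nat.choose_self, Nat.choose_zero_right, mul_zero, zero_mul,
    add_zero, map_zero, Nat.choose, Nat.reduceMul, Nat.cast_one, one_mul, Nat.cast_ofNat]
  try simp only [Derivation.leibniz, Derivation.leibniz_pow, δ0, δ1, δ2, δ_X3, δ_two, smul_eq_mul,
    smul_zero, mul_zero, zero_add, add_zero]
  try ring

theorem Bs_002 : Bs 0 0 2 + 2 * δ (W0 0 0 2) = 0 := by
  simp only [Bs, Finset.sum_range_succ, Finset.sum_range_zero, Gt, W0, zero_add, Nat.sub_self,
    Nat.reduceAdd, Nat.reduceSub, Nat.choose_self, Nat.choose_zero_right, mul_zero, zero_mul,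
    add_zero, map_zero, Nat.choose, Nat.reduceMul, Nat.cast_one, one_mul, Nat.cast_ofNat]
  try simp only [Derivation.leibniz, Derivation.leibniz_pow, δ0, δ1, δ2, δ_X3, δ_two, smul_eq_mul,
    smul_zero, mul_zero, zero_add, add_zero]
  try ring

theorem Bs_111 : Bs 1 1 1 + 2 * δ (W0 1 1 1) = 0 := by
  simp only [Bs, Finset.sum_range_succ, Finset.sum_range_zero, Gt, W0, zero_add, Nat.sub_self,
    Nat.reduceAdd, Nat.reduceSub, Nat.choose_self, Nat.choose_zero_right, mul_zero, zero_mul,
    add_zero, map_zero, Nat.choose, Nat.reduceMul, Nat.cast_one, one_mul, Nat.cast_ofNat]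
  try simp only [Derivation.leibniz, Derivation.leibniz_pow, δ0, δ1, δ2, δ_X3, δ_two, smul_eq_mul,
    smul_zero, mul_zero, zero_add, add_zero]
  try ring

theorem Bs_400 : Bs 4 0 0 + 2 * δ (W0 4 0 0) = 0 := by
  simp only [Bs, Finset.sum_range_succ, Finset.sum_range_zero, Gt, W0, zero_add, Nat.sub_self,
    Nat.reduceAdd, Nat.reduceSub, Nat.choose_self, Nat.choose_zero_right, mul_zero, zero_mul,
    add_zero, map_zero, Nat.choose, Nat.reduceMul, Nat.cast_one, one_mul, Nat.cast_ofNat]
  try simp only [Derivation.leibniz, Derivation.leibniz_pow, δ0, δ1, δ2, δ_X3, δ_two, smul_eq_mul,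
    smul_zero, mul_zero, zero_add, add_zero]
  try ring

theorem Bs_040 : Bs 0 4 0 + 2 * δ (W0 0 4 0) = 0 := by
  simp only [Bs, Finset.sum_range_succ, Finset.sum_range_zero, Gt, W0, zero_add, Nat.sub_self,
    Nat.reduceAdd, Nat.reduceSub, Nat.choose_self, Nat.choose_zero_right, mul_zero, zero_mul,
    add_zero, map_zero, Nat.choose, Nat.reduceMul, Nat.cast_one, one_mul, Nat.cast_ofNat]
  try simp only [Derivation.leibniz, Derivation.leibniz_pow, δ0, δ1, δ2, δ_X3, δ_two, smul_eq_mul,
    smul_zero, mul_zero, zero_add, add_zero]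
  try ring

theorem Bs_004 : Bs 0 0 4 + 2 * δ (W0 0 0 4) = 0 := by
  simp only [Bs, Finset.sum_range_succ, Finset.sum_range_zero, Gt, W0, zero_add, Nat.sub_self,
    Nat.reduceAdd, Nat.reduceSub, Nat.choose_self, Nat.choose_zero_right, mul_zero, zero_mul,
    add_zero, map_zero, Nat.choose, Nat.reduceMul, Nat.cast_one, one_mul, Nat.cast_ofNat]
  try simp only [Derivation.leibniz, Derivation.leibniz_pow, δ0, δ1, δ2, δ_X3, δ_two, smul_eq_mul,
    smul_zero, mul_zero, zero_add, add_zero]
  try ring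

theorem Bs_220 : Bs 2 2 0 + 2 * δ (W0 2 2 0) = 0 := by
  simp only [Bs, Finset.sum_range_succ, Finset.sum_range_zero, Gt, W0, zero_add, Nat.sub_self,
    Nat.reduceAdd, Nat.reduceSub, Nat.choose_self, Nat.choose_zero_right, mul_zero, zero_mul,
    add_zero, map_zero, Nat.choose, Nat.reduceMul, Nat.cast_one, one_mul, Nat.cast_ofNat]
  try simp only [Derivation.leibniz, Derivation.leibniz_pow, δ0, δ1, δ2, δ_X3, δ_two, smul_eq_mul,
    smul_zero, mul_zero, zero_add, add_zero]
  try ring

theorem Bs_202 : Bs 2 0 2 + 2 * δ (W0 2 0 2) = 0 := by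
  simp only [Bs, Finset.sum_range_succ, Finset.sum_range_zero, Gt, W0, zero_add, Nat.sub_self,
    Nat.reduceAdd, Nat.reduceSub, Nat.choose_self, Nat.choose_zero_right, mul_zero, zero_mul,
    add_zero, map_zero, Nat.choose, Nat.reduceMul, Nat.cast_one, one_mul, Nat.cast_ofNat]
  try simp only [Derivation.leibniz, Derivation.leibniz_pow, δ0, δ1, δ2, δ_X3, δ_two, smul_eq_mul,
    smul_zero, mul_zero, zero_add, add_zero]
  try ring

theorem Bs_022 : Bs 0 2 2 + 2 * δ (W0 0 2 2) = 0 := by
  simp only [Bs, Finset.sum_range_succ, Finset.sum_range_zero, Gt, W0, zero_add, Nat.sub_self,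
    Nat.reduceAdd, Nat.reduceSub, Nat.choose_self, Nat.choose_zero_right, mul_zero, zero_mul,
    add_zero, map_zero, Nat.choose, Nat.reduceMul, Nat.cast_one, one_mul, Nat.cast_ofNat]
  try simp only [Derivation.leibniz, Derivation.leibniz_pow, δ0, δ1, δ2, δ_X3, δ_two, smul_eq_mul,
    smul_zero, mul_zero, zero_add, add_zero]
  try ring

theorem Bs_small {a b c : ℕ} (h : a + b + c ≤ 4) : Bs a b c + 2 * δ (W0 a b c) = 0 := by
  by_cases hp : a % 2 = b % 2 ∧ b % 2 = c % 2
  · have h1 : (a, b, c) ∈ [(0,0,0),(2,0,0),(0,2,0),(0,0,2),(1,1,1),(4,0,0),(0,4,0),(0,0,4),(2,2,0),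
        (2,0,2),(0,2,2)] := by
      have ha : a ≤ 4 := by omega
      have hb : b ≤ 4 := by omega
      have hc : c ≤ 4 := by omega
      interval_cases a <;> interval_cases b <;> interval_cases c <;>
        first | (exfalso; omega) | decide
    simp only [List.mem_cons, Prod.mk.injEq, List.not_mem_nil, or_false] at h1
    rcases h1 with ⟨rfl, rfl, rfl⟩ | ⟨rfl, rfl, rfl⟩ | ⟨rfl, rfl, rfl⟩ | ⟨rfl, rfl, rfl⟩ |
      ⟨rfl, rfl, rfl⟩ | ⟨rfl, rfl, rfl⟩ | ⟨rfl, rfl, rfl⟩ | ⟨rfl, rfl, rfl⟩ | ⟨rfl, rfl, rfl⟩ |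
      ⟨rfl, rfl, rfl⟩ | ⟨rfl, rfl, rfl⟩
    exacts [Bs_000, Bs_200, Bs_020, Bs_002, Bs_111, Bs_400, Bs_040, Bs_004, Bs_220, Bs_202,
      Bs_022]
  · rw [Bs_par hp, W0_par hp, map_zero, mul_zero, add_zero]

/-- One more half-edge, on either side. -/
def T3 (q : Fin 3) (G : ℕ → ℕ → ℕ → ℕ → ℕ → ℕ → R) : ℕ → ℕ → ℕ → ℕ → ℕ → ℕ → R :=
  match q with
  | 0 => fun i j k i' j' k' => G (i + 1) j k i' j' k' + G i j k (i' + 1) j' k'
  | 1 => fun i j k i' j' k' => G i (j + 1) k i' j' k' + G i j k i' (j' + 1) k'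
  | 2 => fun i j k i' j' k' => G i j (k + 1) i' j' k' + G i j k i' j' (k' + 1)

/-- The binomial sums for a general summand. -/
def BS (G : ℕ → ℕ → ℕ → ℕ → ℕ → ℕ → R) (a b c : ℕ) : R :=
  ∑ i ∈ Finset.range (a + 1), ∑ j ∈ Finset.range (b + 1), ∑ k ∈ Finset.range (c + 1),
    ((a.choose i * b.choose j * c.choose k : ℕ) : R) * G i j k (a - i) (b - j) (c - k)

theorem pascal (g : ℕ → ℕ → R) (a : ℕ) :
    ∑ i ∈ Finset.range (a + 2), ((a + 1).choose i : R) * g i (a + 1 - i) =
      ∑ i ∈ Finset.range (a + 1), (a.choose i : R) * (g (i + 1) (a - i) + g i (a - i + 1)) := by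
  have h1 : ∑ i ∈ Finset.range (a + 2), ((a + 1).choose i : R) * g i (a + 1 - i) =
      ∑ i ∈ Finset.range (a + 1), ((a + 1).choose (i + 1) : R) * g (i + 1) (a - i) +
        g 0 (a + 1) := by
    rw [Finset.sum_range_succ']
    simp
  have h2 : ∑ i ∈ Finset.range (a + 1), (a.choose i : R) * g i (a - i + 1) =
      ∑ i ∈ Finset.range (a + 1), (a.choose (i + 1) : R) * g (i + 1) (a - i) + g 0 (a + 1) := by
    rw [Finset.sum_range_succ' _ a, Finset.sum_range_succ _ a]
    simp only [Nat.choose_succ_self, Nat.cast_zero, zero_mul, add_zero, Nat.choose_zero_right,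
      Nat.cast_one, one_mul, Nat.sub_zero]
    congr 1
    refine Finset.sum_congr rfl fun i hi => ?_
    rw [Finset.mem_range] at hi
    rw [show a - (i + 1) + 1 = a - i by omega]
  rw [h1]
  simp only [mul_add, Finset.sum_add_distrib]
  rw [h2, ← add_assoc, ← Finset.sum_add_distrib]
  congr 1
  refine Finset.sum_congr rfl fun i _ => ?_
  rw [Nat.choose_succ_succ', Nat.cast_add, add_mul]

theorem BS_0 (G) (a b c : ℕ) : BS G (a + 1) b c = BS (T3 0 G) a b c := by
  have := pascal (fun i i' => ∑ j ∈ Finset.range (b + 1), ∑ k ∈ Finset.range (c + 1),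
    ((b.choose j * c.choose k : ℕ) : R) * G i j k i' (b - j) (c - k)) a
  simp only [BS, T3]
  simp only [Nat.cast_mul, mul_assoc, ← Finset.mul_sum] at this ⊢
  rw [this]
  simp only [← Finset.sum_add_distrib, ← mul_add]

theorem BS_1 (G) (a b c : ℕ) : BS G a (b + 1) c = BS (T3 1 G) a b c := by
  refine Finset.sum_congr rfl fun i _ => ?_
  have := pascal (fun j j' => ∑ k ∈ Finset.range (c + 1),
    ((a.choose i * c.choose k : ℕ) : R) * G i j k (a - i) j' (c - k)) b
  simp only [T3]
  have e (j k n : ℕ) (y : R) : ((a.choose i * n.choose j * c.choose k : ℕ) : R) * y =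
      (n.choose j : R) * (((a.choose i * c.choose k : ℕ) : R) * y) := by push_cast; ring
  simp only [e, ← Finset.mul_sum]
  rw [this]
  simp only [← Finset.sum_add_distrib, ← mul_add]

theorem BS_2 (G) (a b c : ℕ) : BS G a b (c + 1) = BS (T3 2 G) a b c := by
  refine Finset.sum_congr rfl fun i _ => Finset.sum_congr rfl fun j _ => ?_
  have := pascal (fun k k' => ((a.choose i * b.choose j : ℕ) : R) * G i j k (a - i) (b - j) k') c
  simp only [T3]
  have e (k n : ℕ) (y : R) : ((a.choose i * b.choose j * n.choose k : ℕ) : R) * y =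
      (n.choose k : R) * (((a.choose i * b.choose j : ℕ) : R) * y) := by push_cast; ring
  simp only [e]
  rw [this]
  simp only [← mul_add]

/-- The number of half-edges of the colour `c`. -/
def ct (A : Multiset St) (c : Fin 3) : ℕ := A.count (inl c)

theorem sum_core (G : ℕ → ℕ → ℕ → ℕ → ℕ → ℕ → R) (M : Multiset St) (hM : ∀ q ∈ M, ∃ c, q = inl c) :
    (M.antidiagonal.map fun p => G (ct p.1 0) (ct p.1 1) (ct p.1 2) (ct p.2 0) (ct p.2 1)
      (ct p.2 2)).sum = BS G (ct M 0) (ct M 1) (ct M 2) := by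
  induction M using Multiset.induction generalizing G with
  | empty => simp [BS, ct]
  | cons q M ih =>
    obtain ⟨c, rfl⟩ := hM q (Multiset.mem_cons_self _ _)
    have ih := ih (T3 c G) fun q hq => hM q (Multiset.mem_cons_of_mem hq)
    rw [Multiset.antidiagonal_cons, Multiset.map_add, Multiset.sum_add,
      Multiset.map_map, Multiset.map_map, ← Multiset.sum_map_add]
    match c with
    | 0 =>
      rw [show ct (inl 0 ::ₘ M) 0 = ct M 0 + 1 by simp [ct],
        show ct (inl 0 ::ₘ M) 1 = ct M 1 by simp [ct],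
        show ct (inl 0 ::ₘ M) 2 = ct M 2 by simp [ct], BS_0, ← ih]
      refine congrArg _ (Multiset.map_congr rfl fun p _ => ?_)
      simp [ct, T3, add_comm]
    | 1 =>
      rw [show ct (inl 1 ::ₘ M) 0 = ct M 0 by simp [ct],
        show ct (inl 1 ::ₘ M) 1 = ct M 1 + 1 by simp [ct],
        show ct (inl 1 ::ₘ M) 2 = ct M 2 by simp [ct], BS_1, ← ih]
      refine congrArg _ (Multiset.map_congr rfl fun p _ => ?_)
      simp [ct, T3, add_comm]
    | 2 =>
      rw [show ct (inl 2 ::ₘ M) 0 = ct M 0 by simp [ct],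
        show ct (inl 2 ::ₘ M) 1 = ct M 1 by simp [ct],
        show ct (inl 2 ::ₘ M) 2 = ct M 2 + 1 by simp [ct], BS_2, ← ih]
      refine congrArg _ (Multiset.map_congr rfl fun p _ => ?_)
      simp [ct, T3, add_comm]

theorem Wm_core {A : Multiset St} (h : ∀ q ∈ A, ∃ c, q = inl c) :
    Wm A = W0 (ct A 0) (ct A 1) (ct A 2) := by
  have h1 : A.count (inr true) = 0 := Multiset.count_eq_zero.2 fun hm => by
    obtain ⟨c, hc⟩ := h _ hm
    cases hc
  have h2 : A.count (inr false) = 0 := Multiset.count_eq_zero.2 fun hm => by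
    obtain ⟨c, hc⟩ := h _ hm
    cases hc
  rw [Wm, W, if_pos h1, h2]
  rfl

theorem F2_core {A B : Multiset St} (hA : ∀ q ∈ A, ∃ c, q = inl c) (hB : ∀ q ∈ B, ∃ c, q = inl c) :
    F2 A B = Gt (ct A 0) (ct A 1) (ct A 2) (ct B 0) (ct B 1) (ct B 2) := by
  have h (c : Fin 3) {A : Multiset St} (hA : ∀ q ∈ A, ∃ c, q = inl c) :
      ∀ q ∈ inl c ::ₘ A, ∃ c : Fin 3, q = (inl c : St) := by
    intro q hq
    rcases Multiset.mem_cons.1 hq with rfl | hq
    · exact ⟨c, rfl⟩
    · exact hA q hq
  rw [F2, Fin.sum_univ_three, Wm_core (h 0 hA), Wm_core (h 0 hB), Wm_core (h 1 hA),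
    Wm_core (h 1 hB), Wm_core (h 2 hA), Wm_core (h 2 hB)]
  simp [ct, Gt]

/-- The identity without leaves. -/
theorem base (M : Multiset St) (hM : ∀ q ∈ M, ∃ c, q = inl c) :
    (X 3 : R) ^ 3 ∣ S1 M + 2 * δ (Wm M) := by
  have h1 : S1 M = Bs (ct M 0) (ct M 1) (ct M 2) := by
    have := sum_core Gt M hM
    rw [Bs, ← BS, ← this, S1]
    refine congrArg _ (Multiset.map_congr rfl fun p hp => ?_)
    rw [Multiset.mem_antidiagonal] at hp
    exact F2_core (fun q hq => hM q (hp ▸ Multiset.mem_add.2 (Or.inl hq)))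
      fun q hq => hM q (hp ▸ Multiset.mem_add.2 (Or.inr hq))
  rw [h1, Wm_core hM]
  rcases le_or_gt (ct M 0 + ct M 1 + ct M 2) 4 with h | h
  · rw [Bs_small h]; exact dvd_zero _
  · rw [W0_small (Or.inr h), map_zero, mul_zero, add_zero]
    refine Finset.dvd_sum fun i hi => Finset.dvd_sum fun j hj => Finset.dvd_sum fun k hk => ?_
    rw [Finset.mem_range] at hi hj hk
    exact dvd_mul_of_dvd_right (Gt_dvd (by omega)) _

theorem dvd_δ {p : R} (h : (X 3 : R) ^ 3 ∣ p) : (X 3 : R) ^ 3 ∣ δ p := by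
  obtain ⟨q, rfl⟩ := h
  exact ⟨δ q, δ_X3_mul q⟩

/-- The local identity for a vertex with the local states `M`. -/
theorem local_id (M : Multiset St) : (X 3 : R) ^ 3 ∣
    (M.antidiagonal.map fun p => ∑ q : St, Wm (q ::ₘ p.1) * Wm (fl q ::ₘ p.2)).sum := by
  by_cases hM : inr true ∈ M
  · rw [Multiset.sum_eq_zero]
    · exact dvd_zero _
    intro z hz
    obtain ⟨p, hp, rfl⟩ := Multiset.mem_map.1 hz
    rw [Multiset.mem_antidiagonal] at hp
    refine Finset.sum_eq_zero fun q _ => ?_
    rcases Multiset.mem_add.1 (hp.symm ▸ hM) with h | h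
    · rw [Wm_end h, zero_mul]
    · rw [Wm_end h, mul_zero]
  · have h1 : (M.antidiagonal.map fun p => ∑ q : St, Wm (q ::ₘ p.1) * Wm (fl q ::ₘ p.2)).sum =
        S1 M + 2 * Wm (inr false ::ₘ M) := by
      have e (p : Multiset St × Multiset St) : ∑ q : St, Wm (q ::ₘ p.1) * Wm (fl q ::ₘ p.2) =
          F2 p.1 p.2 + ((if p.1 = 0 then Wm (inr false ::ₘ p.2) else 0) +
            if p.2 = 0 then Wm (inr false ::ₘ p.1) else 0) := by
        rw [Fintype.sum_sum_type, Fintype.sum_bool]
        simp only [fl, Sum.map_inl, Sum.map_inr, id_eq, Bool.not_true, Bool.not_false,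
          Wm_end_cons, F2]
        split_ifs <;> simp
      simp only [e]
      rw [Multiset.sum_map_add, Multiset.sum_map_add,
        sum_zero_fst M fun B => Wm (inr false ::ₘ B), sum_zero_snd M fun B => Wm (inr false ::ₘ B),
        S1, two_mul]
    rw [h1]
    clear h1
    induction hn : M.count (inr false) generalizing M with
    | zero =>
      rw [Wm_big hM]
      refine base M fun q hq => ?_
      match q with
      | inl c => exact ⟨c, rfl⟩
      | inr true => exact absurd hq hM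
      | inr false => exact absurd hn (Multiset.count_pos.2 hq).ne'
    | succ n ih =>
      have hm : inr false ∈ M := Multiset.count_pos.1 (by omega)
      obtain ⟨M', rfl⟩ := Multiset.exists_cons_of_mem hm
      have hM' : inr true ∉ M' := fun h => hM (Multiset.mem_cons_of_mem h)
      have := ih M' hM' (by simpa using hn)
      rw [S1_big hM', Wm_big (A := inr false ::ₘ M') hM, Wm_big hM'] at *
      have h2 := dvd_δ this
      rwa [map_add, Derivation.leibniz, δ_two, smul_zero, add_zero, smul_eq_mul] at h2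

end

end Vale.Agent.P273.D14.FS
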