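import Vale.Agent.P273.D14.H743.FLoc
import Vale.Agent.P273.D14.H743.FIso

/-! The splitting relation for `f`. -/

namespace Vale.Agent.P273.D14.FS

open Sum MvPolynomial

noncomputable section

variable {V E : Type}

theorem card_opt [Finite E] (P : Option E × Bool → Prop) :
    Nat.card {y // P y} = Nat.card {b : Bool // P (none, b)} +
      Nat.card {y : E × Bool // P (some y.1, y.2)} := by
  classical
  haveI := Fintype.ofFinite E
  rw [Nat.card_eq_fintype_card, Nat.card_eq_fintype_card, Nat.card_eq_fintype_card,
    Fintype.card_subtype, Fintype.card_subtype, Fintype.card_subtype, Finset.card_filter,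
    Finset.card_filter, Finset.card_filter, Fintype.sum_prod_type, Fintype.sum_option,
    Fintype.sum_prod_type]

/-- The states of the graph with one more edge. -/
theorem loc_some (s : Option E → St) (y : E × Bool) :
    loc s (some y.1, y.2) = loc (fun e => s (some e)) y := rfl

/-- The multiset of local states at the half-edges in `S`. -/
def ms (s : E → St) (S : Finset (E × Bool)) : Multiset St := S.val.map (loc s)

theorem cnt_ms [Fintype E] (h : E × Bool → V) (s : E → St) (v : V) [DecidableEq V] :
    cnt h s v = fun q => (ms s (Finset.univ.filter fun y => h y = v)).count q := by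
  classical
  funext q
  rw [cnt, ms, Multiset.count_map, ← Finset.filter_val, Finset.filter_filter, Finset.card_val,
    Nat.card_eq_fintype_card, Fintype.card_subtype]
  congr 1
  ext y
  simp [eq_comm]

theorem card_bool (P : Bool → Prop) (b : Bool) (q q' : St) (hP : ∀ b', P b' ↔ b' = b ∧ q' = q) :
    Nat.card {b' // P b'} = if q = q' then 1 else 0 := by
  classical
  rw [Nat.card_eq_fintype_card, Fintype.card_subtype]
  simp only [hP]
  split_ifs with h
  · subst h
    simp only [and_true]
    cases b <;> rfl
  · rw [Finset.card_eq_zero, Finset.filter_eq_empty_iff]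
    intro b' _ hb
    exact h hb.2.symm

theorem split_none_iff (h : E × Bool → V) (v : V) (S : Set (E × Bool)) (y : E × Bool) :
    split h v S (some y.1, y.2) = none ↔ h y = v ∧ y ∈ S := by
  classical
  have h1 : split h v S (some y.1, y.2) =
    if h (y.1, y.2) = v ∧ (y.1, y.2) ∈ S then none else some (h (y.1, y.2)) := rfl
  rw [h1]
  split_ifs with h2
  · simpa using h2
  · simpa using h2

theorem split_some_iff (h : E × Bool → V) (v : V) (S : Set (E × Bool)) (y : E × Bool) (w : V) :
    split h v S (some y.1, y.2) = some w ↔ h y = w ∧ ¬ (h y = v ∧ y ∈ S) := by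
  classical
  have h1 : split h v S (some y.1, y.2) =
    if h (y.1, y.2) = v ∧ (y.1, y.2) ∈ S then none else some (h (y.1, y.2)) := rfl
  rw [h1]
  split_ifs with h2
  · simp only [reduceCtorEq, false_iff]
    exact fun h3 => h3.2 h2
  · rw [Option.some_inj]
    exact ⟨fun h3 => ⟨h3, h2⟩, fun h3 => h3.1⟩

section
variable [Fintype E] [Fintype V] [DecidableEq V] [DecidableEq E]

theorem cnt_split_none (h : E × Bool → V) (v : V) (S : Finset (E × Bool))
    (hS : S ⊆ Finset.univ.filter fun y => h y = v) (s : Option E → St) :
    cnt (split h v S) s none = fun q => (s none ::ₘ ms (fun e => s (some e)) S).count q := by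
  funext q
  rw [cnt, card_opt, Multiset.count_cons, add_comm]
  congr 1
  · rw [ms, Multiset.count_map, ← Finset.filter_val, Finset.card_val,
      Nat.card_eq_fintype_card, Fintype.card_subtype]
    congr 1
    ext y
    rw [Finset.mem_filter, Finset.mem_filter, split_none_iff, loc_some, Finset.mem_coe]
    constructor
    · exact fun h1 => ⟨h1.2.1.2, h1.2.2.symm⟩
    · exact fun h1 => ⟨Finset.mem_univ _, ⟨(Finset.mem_filter.1 (hS h1.1)).2, h1.1⟩, h1.2.symm⟩
  · refine card_bool _ true q (s none) fun b => ?_
    cases b
    · simp [split]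
    · simp [split, loc_true]

theorem cnt_split_some (h : E × Bool → V) (v : V) (S : Finset (E × Bool))
    (hS : S ⊆ Finset.univ.filter fun y => h y = v) (s : Option E → St) :
    cnt (split h v S) s (some v) = fun q => (fl (s none) ::ₘ
      ms (fun e => s (some e)) ((Finset.univ.filter fun y => h y = v) \ S)).count q := by
  funext q
  rw [cnt, card_opt, Multiset.count_cons, add_comm]
  congr 1
  · rw [ms, Multiset.count_map, ← Finset.filter_val, Finset.card_val,
      Nat.card_eq_fintype_card, Fintype.card_subtype]
    congr 1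
    ext y
    rw [Finset.mem_filter, Finset.mem_filter, split_some_iff, loc_some, Finset.mem_coe,
      Finset.mem_sdiff, Finset.mem_filter]
    constructor
    · exact fun h1 => ⟨⟨⟨Finset.mem_univ _, h1.2.1.1⟩, fun h2 => h1.2.1.2 ⟨h1.2.1.1, h2⟩⟩,
        h1.2.2.symm⟩
    · exact fun h1 => ⟨Finset.mem_univ _, ⟨h1.1.1.2, fun h2 => h1.1.2 h2.2⟩, h1.2.symm⟩
  · refine card_bool _ false q (fl (s none)) fun b => ?_
    cases b
    · have : loc s (none, false) = fl (s none) := by
        have := loc_not s none true
        rw [loc_true] at this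
        exact this
      simp [split, this]
    · simp [split]

theorem cnt_split_other (h : E × Bool → V) (v : V) (S : Set (E × Bool)) (s : Option E → St)
    {v' : V} (hv : v' ≠ v) :
    cnt (split h v S) s (some v') = cnt h (fun e => s (some e)) v' := by
  funext q
  rw [cnt, card_opt, cnt]
  have h1 : Nat.card {b : Bool // split h v S (none, b) = some v' ∧ loc s (none, b) = q} = 0 := by
    rw [Nat.card_eq_zero]
    left
    refine ⟨fun ⟨b, hb⟩ => ?_⟩
    have := hb.1
    cases b
    · exact hv (Option.some_inj.1 this).symm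
    · cases this
  rw [h1, zero_add]
  refine Nat.card_congr (Equiv.subtypeEquivRight fun y => ?_)
  rw [loc_some, split_some_iff]
  refine and_congr_left fun _ => ?_
  exact ⟨fun h2 => h2.1, fun h2 => ⟨h2, fun h3 => hv (h2.symm.trans h3.1)⟩⟩

theorem Z_split (h : E × Bool → V) (v : V) (S : Finset (E × Bool))
    (hS : S ⊆ Finset.univ.filter fun y => h y = v) :
    Z (split h v S) = ∑ s : E → St, (∑ q : St, Wm (q ::ₘ ms s S) *
      Wm (fl q ::ₘ ms s ((Finset.univ.filter fun y => h y = v) \ S))) *
      ∏ v' ∈ Finset.univ.erase v, W (cnt h s v') := by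
  rw [Z, finsum_eq_sum_of_fintype]
  rw [← (Equiv.piOptionEquivProd (β := fun _ : Option E => St)).symm.sum_comp,
    Fintype.sum_prod_type_right]
  refine Finset.sum_congr rfl fun s _ => ?_
  rw [Finset.sum_mul]
  refine Finset.sum_congr rfl fun q _ => ?_
  rw [finprod_eq_prod_of_fintype, Fintype.prod_option, mul_assoc]
  rw [cnt_split_none h v S hS]
  congr 1
  rw [← Finset.mul_prod_erase Finset.univ _ (Finset.mem_univ v), cnt_split_some h v S hS]
  congr 1
  refine Finset.prod_congr rfl fun v' hv' => ?_
  rw [cnt_split_other h v S _ (Finset.ne_of_mem_erase hv')]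
  rfl

theorem antidiag_ms (s : E → St) (H : Finset (E × Bool)) (g : Multiset St → Multiset St → R) :
    ∑ S ∈ H.powerset, g (ms s S) (ms s (H \ S)) =
      ((ms s H).antidiagonal.map fun p => g p.1 p.2).sum := by
  induction H using Finset.induction generalizing g with
  | empty => simp [ms]
  | insert y H hy ih =>
    rw [Finset.sum_powerset_insert hy]
    have h1 : ms s (insert y H) = loc s y ::ₘ ms s H := by
      rw [ms, Finset.insert_val_of_notMem hy, Multiset.map_cons]; rfl
    rw [h1, Multiset.antidiagonal_cons, Multiset.map_add, Multiset.sum_add, Multiset.map_map,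
      Multiset.map_map]
    congr 1
    · have := ih fun A B => g A (loc s y ::ₘ B)
      refine Eq.trans ?_ (this.trans rfl)
      refine Finset.sum_congr rfl fun S hS => ?_
      have hyS : y ∉ S := fun h => hy (Finset.mem_powerset.1 hS h)
      rw [Finset.insert_sdiff_of_notMem _ hyS]
      rw [show ms s (insert y (H \ S)) = loc s y ::ₘ ms s (H \ S) by
        rw [ms, Finset.insert_val_of_notMem (fun h => hy (Finset.mem_sdiff.1 h).1),
          Multiset.map_cons]; rfl]
    · have := ih fun A B => g (loc s y ::ₘ A) B
      refine Eq.trans ?_ (this.trans rfl)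
      refine Finset.sum_congr rfl fun S hS => ?_
      have hyS : y ∉ S := fun h => hy (Finset.mem_powerset.1 hS h)
      rw [Finset.insert_sdiff_insert]
      rw [show H \ insert y S = H \ S by
        ext z; simp only [Finset.mem_sdiff, Finset.mem_insert, not_or]
        exact ⟨fun h => ⟨h.1, h.2.2⟩, fun h => ⟨h.1, fun h3 => hy (h3 ▸ h.1), h.2⟩⟩]
      rw [show ms s (insert y S) = loc s y ::ₘ ms s S by
        rw [ms, Finset.insert_val_of_notMem hyS, Multiset.map_cons]; rfl]

/-- The splitting relation, as a sum over finsets. -/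
theorem f_star_finset (h : E × Bool → V) (v : V) :
    ∑ S ∈ (Finset.univ.filter fun y => h y = v).powerset, f (split h v S) = 0 := by
  have h1 : (∑ S ∈ (Finset.univ.filter fun y => h y = v).powerset, f (split h v S)) =
      La (∑ s : E → St, ((ms s (Finset.univ.filter fun y => h y = v)).antidiagonal.map fun p =>
        ∑ q : St, Wm (q ::ₘ p.1) * Wm (fl q ::ₘ p.2)).sum *
        ∏ v' ∈ Finset.univ.erase v, W (cnt h s v')) := by
    simp only [f]
    rw [← map_sum]
    congr 1
    rw [Finset.sum_congr rfl fun S hS => Z_split h v S (Finset.mem_powerset.1 hS),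
      Finset.sum_comm]
    refine Finset.sum_congr rfl fun s _ => ?_
    rw [← Finset.sum_mul, antidiag_ms s _ fun A B => ∑ q : St, Wm (q ::ₘ A) * Wm (fl q ::ₘ B)]
  rw [h1, map_sum]
  refine Finset.sum_eq_zero fun s _ => ?_
  obtain ⟨P, hP⟩ := local_id (ms s (Finset.univ.filter fun y => h y = v))
  rw [hP, mul_assoc, La_X3]

end

/-- The splitting relation. -/
theorem f_star [Finite V] [Finite E] (h : E × Bool → V) (v : V) :
    ∑ᶠ S : Set {y : E × Bool // h y = v}, f (split h v (Subtype.val '' S)) = 0 := by
  classical
  haveI := Fintype.ofFinite E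
  haveI := Fintype.ofFinite V
  rw [← f_star_finset h v, finsum_eq_sum_of_fintype]
  refine Finset.sum_bij 
    (fun S _ => (Set.toFinite (Subtype.val '' S : Set (E × Bool))).toFinset) ?_ ?_ ?_ ?_
  · intro S _
    rw [Finset.mem_powerset]
    intro y hy
    rw [Set.Finite.mem_toFinset] at hy
    obtain ⟨z, _, rfl⟩ := hy
    exact Finset.mem_filter.2 ⟨Finset.mem_univ _, z.2⟩
  · intro S _ S' _ hS
    have := congrArg (fun s : Finset (E × Bool) => (s : Set (E × Bool))) hS
    simp only [Set.Finite.coe_toFinset] at this
    exact Subtype.val_injective.image_injective this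
  · intro S hS
    refine ⟨{y | y.1 ∈ S}, Finset.mem_univ _, ?_⟩
    ext y
    rw [Set.Finite.mem_toFinset]
    constructor
    · rintro ⟨z, hz, rfl⟩
      exact hz
    · intro hy
      exact ⟨⟨y, (Finset.mem_filter.1 (Finset.mem_powerset.1 hS hy)).2⟩, hy, rfl⟩
  · intro S _
    rw [Set.Finite.coe_toFinset]

end

end Vale.Agent.P273.D14.FS
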